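import Vale.Agent.P164.MathlibUsed

namespace Vale.Agent.P164

open MeasureTheory ProbabilityTheory Set
open scoped NNReal ENNReal

/-- A gauge: continuous and nondecreasing on `[0,∞)`, zero at `0`, positive on `(0,∞)`. -/
structure IsGauge (h : ℝ → ℝ) : Prop where
  cont : ContinuousOn h (Ici 0)
  mono : MonotoneOn h (Ici 0)
  zero : h 0 = 0
  pos : ∀ r : ℝ, 0 < r → 0 < h r

/-- The Hausdorff measure of `E ⊆ ℂ` for the gauge `h`: the limit as `δ ↓ 0` (a supremum) of the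
infimum of `∑ h (diam U_n)` over countable covers of `E` by arbitrary sets of diameter `≤ δ`. -/
noncomputable def gaugeMeasure (h : ℝ → ℝ) (E : Set ℂ) : ℝ≥0∞ :=
  ⨆ (δ : ℝ) (_ : 0 < δ), ⨅ (U : ℕ → Set ℂ) (_ : E ⊆ ⋃ n, U n)
    (_ : ∀ n, Bornology.IsBounded (U n) ∧ Metric.diam (U n) ≤ δ),
      ∑' n, ENNReal.ofReal (h (Metric.diam (U n)))

/-- `g` solves on `[0,t]` the Loewner equation `g' = 2 / (g - W)`, `g 0 = z`, inside the open
upper half-plane. -/
def IsLoewnerSol (W : ℝ → ℝ) (z : ℂ) (t : ℝ) (g : ℝ → ℂ) : Prop :=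
  g 0 = z ∧ ∀ s ∈ Icc 0 t, 0 < (g s).im ∧
    HasDerivWithinAt g (2 / (g s - (W s : ℂ))) (Icc 0 t) s

/-- The domain of `g_t`: the points of the open upper half-plane whose Loewner solution exists on
all of `[0,t]`. -/
def loewnerDomain (W : ℝ → ℝ) (t : ℝ) : Set ℂ := {z | ∃ g, IsLoewnerSol W z t g}

/-- `γ` is a simple curve in the closed upper half-plane, touching the real line only at time `0`,
which generates the Loewner chain driven by `W`: for every `t` the domain of `g_t` is the upper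
half-plane minus `γ (0,t]`. -/
structure IsSimpleTrace (W : ℝ → ℝ) (γ : ℝ → ℂ) : Prop where
  cont : ContinuousOn γ (Ici 0)
  inj : InjOn γ (Ici 0)
  start : γ 0 = (W 0 : ℂ)
  im_pos : ∀ t : ℝ, 0 < t → 0 < (γ t).im
  domain_eq : ∀ t : ℝ, 0 ≤ t → loewnerDomain W t = {z : ℂ | 0 < z.im} \ γ '' Ioc 0 t

/-- `γ` is the trace of chordal SLE with parameter `κ` (`0 < κ ≤ 4`, the simple phase) on the
probability space `(Ω, P)`: its driving function is `√κ` times a standard Brownian motion. -/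
def IsSLETrace {Ω : Type*} [MeasurableSpace Ω] (κ : ℝ) (P : Measure Ω) (γ : Ω → ℝ → ℂ) : Prop :=
  ∃ B : ℝ≥0 → Ω → ℝ, IsBrownianReal B P ∧
    ∀ᵐ ω ∂P, IsSimpleTrace (fun t => √κ * B t.toNNReal ω) (γ ω)

universe u

/-- Almost surely every segment of the trace has zero `h`-measure. -/
def AllNull (κ : ℝ) (h : ℝ → ℝ) : Prop :=
  ∀ (Ω : Type u) [MeasurableSpace Ω] (P : Measure Ω) (γ : Ω → ℝ → ℂ), IsSLETrace κ P γ →
    ∀ᵐ ω ∂P, ∀ s t : ℝ, 0 < s → s < t → gaugeMeasure h (γ ω '' Icc s t) = 0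

/-- `h` is a good gauge: almost surely every segment has positive and finite `h`-measure. -/
def Good (κ : ℝ) (h : ℝ → ℝ) : Prop :=
  ∀ (Ω : Type u) [MeasurableSpace Ω] (P : Measure Ω) (γ : Ω → ℝ → ℂ), IsSLETrace κ P γ →
    ∀ᵐ ω ∂P, ∀ s t : ℝ, 0 < s → s < t →
      0 < gaugeMeasure h (γ ω '' Icc s t) ∧ gaugeMeasure h (γ ω '' Icc s t) < ⊤

/-- Almost surely every segment of the trace has infinite `h`-measure. -/
def AllInfinite (κ : ℝ) (h : ℝ → ℝ) : Prop :=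
  ∀ (Ω : Type u) [MeasurableSpace Ω] (P : Measure Ω) (γ : Ω → ℝ → ℂ), IsSLETrace κ P γ →
    ∀ᵐ ω ∂P, ∀ s t : ℝ, 0 < s → s < t → gaugeMeasure h (γ ω '' Icc s t) = ⊤

end Vale.Agent.P164
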