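import Mathlib.Algebra.Module.StablyFree.Basic
import Mathlib.Algebra.Ring.IsFormallyReal
import Mathlib.Analysis.Calculus.ParametricIntervalIntegral
import Mathlib.Analysis.Complex.ExponentialBounds
import Mathlib.Analysis.Complex.Polynomial.Basic
import Mathlib.Analysis.Complex.Schwarz
import Mathlib.Analysis.Complex.TaylorSeries
import Mathlib.Analysis.InnerProductSpace.NormDet
import Mathlib.Analysis.ODE.ExistUnique
import Mathlib.Analysis.PSeries
import Mathlib.Analysis.Real.Pi.Bounds
import Mathlib.Analysis.SpecialFunctions.Complex.Arctan
import Mathlib.Analysis.SpecialFunctions.Log.ENNRealLogExp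
import Mathlib.Analysis.SpecialFunctions.Pow.Integral
import Mathlib.Analysis.SpecialFunctions.Trigonometric.DerivHyp
import Mathlib.Computability.Reduce
import Mathlib.Data.Int.Star
import Mathlib.Data.Nat.Dist
import Mathlib.MeasureTheory.Function.Floor
import Mathlib.MeasureTheory.Measure.Lebesgue.VolumeOfBalls
import Mathlib.Order.CompletePartialOrder
import Mathlib.Probability.BrownianMotion.Basic
import Mathlib.Probability.Martingale.Basic
import Mathlib.RingTheory.Complex
import Mathlib.RingTheory.Flat.TorsionFree
import Mathlib.RingTheory.MvPowerSeries.Inverse
import Mathlib.RingTheory.PowerSeries.Basic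
import Mathlib.RingTheory.SimpleRing.Principal
import Mathlib.RingTheory.TotallySplit
import Mathlib.Tactic
import Mathlib.Topology.ContinuousMap.SecondCountableSpace
import Mathlib.Topology.Separation.CompletelyRegular

/-! The part of Mathlib that the development of this folder uses. -/
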